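import Vale.Agent.P273.H233.LimC
import Vale.Agent.P273.H803.AsyQ
import Vale.Agent.P273.H422.GenAdm
import Vale.Agent.P273.H132.LgU

/-!
# P273, crew ASY0: pointwise form of the legs of the core marks

`CoreForm Q D lg`: at every admissible point the leg of a core mark is `± UKD` (545) with bounded
data.  `CoreForm.limC`, `CoreForm.lim0`: the limits (233).
-/

noncomputable section

namespace Vale.Agent.P273.H951

open Set Filter H681 H95 H732 H562 H803 H132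
open scoped Topology ContDiff

/-- the legs of the core marks in `Q` are given pointwise by 545's `UKD`, data bounded by `A` -/
def CoreForm (Q : MarkP) (D : H722.KapData (Fin 3)) (lg : LegF) : Prop :=
  ∃ A N₀ : ℝ, 0 ≤ A ∧ 1 ≤ N₀ ∧ ∀ R m S, FarOk R S → ∀ p, Adm R m S N₀ p →
    ∀ (j : L) (s : Bool) (h : R.pl j = Sum.inr s), Q R S j → ∀ ξ, IsCl ξ →
    ∃ (K0 : (Fin 3 → ℂ) →L[ℂ] ℂ) (K' : (Fin 3 → ℂ) × ℂ →L[ℝ] ((Fin 3 → ℂ) →L[ℂ] ℂ)),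
      ‖K0‖ ≤ A ∧ ‖K'‖ ≤ A ∧ ∀ v, lg R m S j ξ p v = (if s then -1 else 1) *
        H545.UKD D K0 K' (xeF ξ) (btF ξ) (bP R m p) (bC R m) (sC R m ⟨j, by simp [h]⟩) v

variable {Q : MarkP} {D : H722.KapData (Fin 3)} {lg : LegF} {κ : Fin 3 → Fin 3 → ℝ}

theorem CoreForm.coreLeg (h : CoreForm Q D lg) : ∃ A : ℝ, ∀ (R : H95.Region)
    (m : ∀ k, Fin (R.n k + 1)) (S : L → Bool), FarOk R S → ∀ (B : Set (W R m).Fr) (p : Co R m),
    Gen R m S B p → (∀ k, 0 < p.2.2.1 k) → ∀ (j : L), Q R S j → ∀ (b : Bool),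
    R.pl j = Sum.inr b → ∀ ξ : Fin 6 → ℝ, IsCl ξ →
    H233.LimC.CoreLeg D B p A (if b then -1 else 1) ξ (lg R m S j ξ) := by
  obtain ⟨A, N₀, -, -, H⟩ := h
  refine ⟨A, fun R m S hS B p hp hy j hj b hb ξ hξ => ?_⟩
  filter_upwards [H422.gen_adm R m S hS B p hp hy N₀] with N hN
  obtain ⟨K0, K', h0, h1, h2⟩ := H R m S hS _ hN j b hb hj ξ hξ
  refine ⟨K0, K', sC R m ⟨j, by simp [hb]⟩, h0, h1, fun v hv => ?_, fun v => ?_⟩
  · rw [sC_apply, hv]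
    rfl
  · rw [h2]
    rfl

theorem CoreForm.limC (h : CoreForm Q D lg) (hκ : H233.LimC.Kap0 D κ) : ∀ R m S, FarOk R S →
    ∀ (B : Set (W R m).Fr) (p : Co R m), Gen R m S B p →
    (∀ k, 0 < p.2.2.1 k) → ∀ (j : L), Q R S j → ∀ (b : Bool), R.pl j = Sum.inr b →
    ∀ ξ : Fin 6 → ℝ, IsCl ξ → ∀ d : BDir R m, d.ok R m B →
    Tendsto (fun N : ℝ => d.sca R m N * lg R m S j ξ ((W R m).dpt B N p)
      (d.vec R m B ((W R m).dpt B N p))) atTop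
      (𝓝 (legC κ R m ξ p.2.2.1 p.2.2.2.1 b d)) := by
  obtain ⟨A, H⟩ := h.coreLeg
  intro R m S hS B p hp hy j hj b hb ξ hξ d _
  exact H233.LimC.limC_core hκ b (H R m S hS B p hp hy j hj b hb ξ hξ) hy d

theorem CoreForm.lim0 (h : CoreForm Q D lg) (hQ : ∀ R S j, Q R S j → ∃ b, R.pl j = Sum.inr b) :
    ∀ R m S, FarOk R S → ∀ (B : Set (W R m).Fr) (p : Co R m), Gen R m S B p →
    (∀ k, 0 < p.2.2.1 k) → ∀ (j : L), Q R S j → ∀ (ξ : Fin 6 → ℝ), IsCl ξ →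
    (∀ k, bt ξ k = 0) →
    (∀ f ∈ B, Tendsto (fun N : ℝ => N * lg R m S j ξ ((W R m).dpt B N p)
      ((W R m).vec (.ph f))) atTop (𝓝 0)) ∧
    ∀ l, Tendsto (fun N : ℝ => N * lg R m S j ξ ((W R m).dpt B N p)
      ((W R m).vec (.al l))) atTop (𝓝 0) := by
  obtain ⟨A, H⟩ := h.coreLeg
  intro R m S hS B p hp hy j hj ξ hξ hb0
  obtain ⟨b, hb⟩ := hQ R S j hj
  obtain ⟨h1, h2⟩ := H233.LimC.lim0_core (H R m S hS B p hp hy j hj b hb ξ hξ) hy hb0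
  exact ⟨fun f _ => h1 f, h2⟩

/-- marks on the cores: no neck -/
theorem limN_core (hQ : ∀ R S j, Q R S j → ∃ b, R.pl j = Sum.inr b) : ∀ R m S, FarOk R S →
    ∀ (B : Set (W R m).Fr) (p : Co R m), Gen R m S B p →
    (∀ k, 0 < p.2.2.1 k) → ∀ (j : L), Q R S j → ∀ (k : Fin 3) (h : R.pl j = Sum.inl k)
    (ξ : Fin 6 → ℝ), IsCl ξ → ∀ d : BDir R m, d.ok R m B →
    Tendsto (fun N : ℝ => d.sca R m N * lg R m S j ξ ((W R m).dpt B N p)
      (d.vec R m B ((W R m).dpt B N p))) atTop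
      (𝓝 (legN κ R m ξ p.2.2.1 p.2.2.2.1 k (depl R m B p h)
        (wreg.LX R.Cm R.n m k (rkF R h)) d)) := by
  intro R m S _ B p _ _ j hj k hk
  obtain ⟨b, hb⟩ := hQ R S j hj
  rw [hk] at hb
  cases hb

end Vale.Agent.P273.H951

end
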