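import Vale.Agent.P273.H722.UKU
import Vale.Agent.P273.H293.CoreLeg
import Vale.Agent.P273.H604.CutCore
import Vale.Agent.P273.H517.U0
import Vale.Agent.P273.H951.CoreForm
import Vale.Agent.P273.H580.The

/-!
# P273, crew ASY0: the legs of the near core marks

`coreForm_near`: at a core mark in the chart `x` the leg of the gauge of one mark is `± UKD` (545)
with 517's core primitive.
-/

noncomputable section

namespace Vale.Agent.P273.H951

open Set Filter H681 H95 H732 H562 H803 H132
open H722 (PT NT NT_spec shP sqd yc flT flT_neg flat_near_KU ct sqd_dT dT ep_shP)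
open H630 (D0 eps0 sep_ctr ell0)
open H517 (K0 K0_all A0 A0_pos ub norm_ub mul_ub)
open H580 (theOne theFlatFam theStms etaX)
open H293 (bb dd sgn leg_near posj_core)
open scoped Topology ContDiff

variable {R : H95.Region} {m : ∀ k, Fin (R.n k + 1)} {S : L → Bool} {p : Co R m} {N₀ : ℝ}

theorem adm_PT (hN : NT + 1 ≤ N₀) (hp : Adm R m S N₀ p) : bb p ∈ PT NT := by
  intro k
  have h1 := hp.2.1 k
  have h2 := hp.2.2.1 k
  have h3 := Real.pi_gt_three
  refine ⟨?_, ?_, ?_⟩
  · show NT < p.2.2.1 k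
    linarith
  · show -(3 * Real.pi) < p.2.2.2.1 k
    linarith
  · show p.2.2.2.1 k < Real.pi
    linarith

theorem norm_ep_lt (hN : NT + 1 ≤ N₀) (hp : Adm R m S N₀ p) :
    ‖H722.ep (bP R m p)‖ < D0.ρ := by
  have h := (NT_spec (adm_PT hN hp)).1
  have h2 : H722.ep (bP R m p) = eps0 (bb p).1 (bb p).2 := ep_shP (bb p)
  rw [h2]
  exact h

/-- **the legs of the near core marks** -/
theorem coreForm_near : CoreForm Near0 D0 (lgP theOne) := by
  refine ⟨A0, max 5 (NT + 1), A0_pos.le, (by norm_num : (1 : ℝ) ≤ 5).trans (le_max_left _ _), ?_⟩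
  intro R m S hS p hp j s h hQ ξ hξ
  have hj : S j = false := hQ.1
  have hPT := adm_PT (le_max_right _ _) hp
  have hep := norm_ep_lt (le_max_right _ _) hp
  obtain ⟨hx1, hx2⟩ := H604.zone_near hp h hj
  have hpos : (posj R m j p).2 = H132.sC R m ⟨j, by simp [h]⟩ p := by
    rw [posj_core h]
    rfl
  rw [hpos] at hx1 hx2
  set x := H132.sC R m ⟨j, by simp [h]⟩ p with hx
  have hne : ∀ l, x ≠ ctr l := by
    intro l hl
    have := hx2 l
    rw [hl, sub_self, norm_zero] at this
    norm_num at this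
  obtain ⟨k1, k2, k3⟩ := K0_all hep hx1 hx2
  refine ⟨K0 false x (H722.ep (bP R m p), x),
    fderiv ℝ (K0 false x) (H722.ep (bP R m p), x), k2, k3, fun v => ?_⟩
  have hK' : HasFDerivAt (H517.KU sep_ctr ell0 (fun l => ub (ctr l) x) 0)
      (fderiv ℝ (K0 false x) (H722.ep (bP R m p), x)) (H722.ep (shP (bb p)), x) :=
    (k1.differentiableAt (by simp)).hasFDerivAt
  have hb : HasFDerivAt (bb : Co R m → H722.Pa (Fin 3)) (bC R m) p := (bC R m).hasFDerivAt
  have hxd : HasFDerivAt (H293.sC j h : Co R m → ℂ) (H132.sC R m ⟨j, by simp [h]⟩) p :=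
    (H132.sC R m ⟨j, by simp [h]⟩).hasFDerivAt
  have h1 := flat_near_KU (ξ := ξ) hξ hb hxd hPT
    (fun k => lt_of_lt_of_le (by norm_num) (hx2 k))
    (u := fun l => ub (ctr l) x) (a := 0) (fun l => norm_ub (hne l))
    (fun l => by
      have e : (H293.sC j h p - ct l) * ub (ctr l) x = ((‖x - ctr l‖ : ℝ) : ℂ) := mul_ub (hne l)
      rw [e]
      exact Complex.ofReal_mem_slitPlane.2 (norm_pos_iff.2 (sub_ne_zero.2 (hne l))))
    (fun l => by simp) hK'
  have h2 : lgP theOne R m S j ξ p = flT ξ bb (H293.sC j h) (sgn s) p := by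
    have e1 := H604.lgP_near_eq theFlatFam hS (le_max_left 5 (NT + 1)) hp h hj hξ
    have e2 := leg_near (etaX theStms ξ) h hj p
    have e3 : sqd dd (bb p) = eps0 (bb p).1 (bb p).2 := sqd_dT (bb p)
    rw [e3] at e2
    exact e1.trans e2
  rw [h2]
  cases s with
  | false =>
    have e : sgn false = 1 := rfl
    rw [e, h1]
    simp only [Bool.false_eq_true, if_false, one_mul]
    rfl
  | true =>
    have e : sgn true = -1 := rfl
    rw [e, flT_neg, h1]
    simp only [if_true, neg_mul, one_mul]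
    rfl

end Vale.Agent.P273.H951

end
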