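import Vale.Agent.P273.H591.QS
import Vale.Agent.P273.H599.Shrink

/-!
Normalisation data of surfaces and the invariant `QS`: isomorphisms of the graph, smaller parameter
sets, smaller bases.
-/

noncomputable section

namespace Vale.Agent.P273.H951

open Set Filter Topology H183 H837 H395 H948 H591 H599

variable {V V' E E' K L : Type} {m m' : ℕ}

/-! ### Isomorphisms of the graph -/

/-- Isomorphism of the graph, for bijections of the vertices and of the half-edges. -/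
theorem NormS.reindex' {S : Surf m} {U : Set (Fin m' → ℂ)} {φ : (Fin m' → ℂ) → Fin m → ℂ}
    {h : E × Bool → V} {z : E × Bool → (Fin m' → ℂ) → OnePoint ℂ}
    {g : V → OnePoint ℂ → (Fin m' → ℂ) → S.X} (hN : NormS S U φ h z g)
    (pV : V' ≃ V) (pE : E' × Bool ≃ E × Bool)
    (hpE : ∀ e s, pE (e, !s) = ((pE (e, s)).1, !(pE (e, s)).2))
    {h' : E' × Bool → V'} {z' : E' × Bool → (Fin m' → ℂ) → OnePoint ℂ}
    (hh : ∀ y, pV (h' y) = h (pE y)) (hz : ∀ y, ∀ b ∈ U, z' y b = z (pE y) b) :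
    NormS S U φ h' z' (fun v w b => g (pV v) w b) where
  sep := fun b hb y y' e1 e2 => by
    rw [hz _ b hb, hz _ b hb] at e2
    refine pE.injective (hN.sep b hb _ _ ?_ e2)
    rw [← hh, ← hh, e1]
  zc := fun y => (hN.zc (pE y)).congr fun b hb => hz y b hb
  cont := fun v => hN.cont (pV v)
  proj := fun b hb v w => hN.proj b hb (pV v) w
  onto := fun b hb p hp => by
    obtain ⟨v, w, e⟩ := hN.onto b hb p hp
    exact ⟨pV.symm v, w, by rw [Equiv.apply_symm_apply]; exact e⟩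
  ident := fun b hb v w v' w' => by
    have hv : ∀ (y : E' × Bool) (v : V'), v = h' y ↔ pV v = h (pE y) := by
      intro y v
      rw [← hh, pV.apply_eq_iff_eq]
    refine (hN.ident b hb (pV v) w (pV v') w').trans
      (or_congr (and_congr pV.apply_eq_iff_eq Iff.rfl) ?_)
    constructor
    · rintro ⟨e, s, ⟨h1, h2⟩, h3, h4⟩
      obtain ⟨⟨e', s'⟩, he⟩ := pE.surjective (e, s)
      have he' : pE (e', !s') = (e, !s) := by rw [hpE, he]
      refine ⟨e', s', ⟨(hv _ _).2 ?_, ?_⟩, (hv _ _).2 ?_, ?_⟩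
      · rw [he]; exact h1
      · rw [hz _ b hb, he]; exact h2
      · rw [he']; exact h3
      · rw [hz _ b hb, he']; exact h4
    · rintro ⟨e, s, ⟨h1, h2⟩, h3, h4⟩
      rw [hz _ b hb] at h2 h4
      have h1' := (hv _ _).1 h1
      have h3' := (hv _ _).1 h3
      rw [hpE] at h3' h4
      exact ⟨(pE (e, s)).1, (pE (e, s)).2, ⟨h1', h2⟩, h3', h4⟩
  hol := fun b hb v w f hf => hN.hol b hb (pV v) w f hf

/-- Isomorphism of the graph, for bijections of the vertices and of the edges. -/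
theorem NormS.reindex {S : Surf m} {U : Set (Fin m' → ℂ)} {φ : (Fin m' → ℂ) → Fin m → ℂ}
    {h : E × Bool → V} {z : E × Bool → (Fin m' → ℂ) → OnePoint ℂ}
    {g : V → OnePoint ℂ → (Fin m' → ℂ) → S.X} (hN : NormS S U φ h z g)
    (pV : V' ≃ V) (pE : E' ≃ E)
    {h' : E' × Bool → V'} {z' : E' × Bool → (Fin m' → ℂ) → OnePoint ℂ}
    (hh : ∀ y, pV (h' y) = h (pE y.1, y.2)) (hz : ∀ y, ∀ b ∈ U, z' y b = z (pE y.1, y.2) b) :
    NormS S U φ h' z' (fun v w b => g (pV v) w b) :=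
  NormS.reindex' hN pV (pE.prodCongr (Equiv.refl Bool)) (fun _ _ => rfl) hh hz

theorem Br.reindex {X : Type} {U : Set (Fin m' → ℂ)} {h : E × Bool → V}
    {z : E × Bool → (Fin m' → ℂ) → OnePoint ℂ} {g : V → OnePoint ℂ → (Fin m' → ℂ) → X}
    (pV : V' ≃ V) (pE : E' ≃ E) {h' : E' × Bool → V'}
    {z' : E' × Bool → (Fin m' → ℂ) → OnePoint ℂ}
    (hh : ∀ y, pV (h' y) = h (pE y.1, y.2)) (hz : ∀ y, ∀ b ∈ U, z' y b = z (pE y.1, y.2) b)
    {e : E'} {u v : X → ℂ} (H : Br U h z g (pE e) u v) :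
    Br U h' z' (fun v w b => g (pV v) w b) e u v := by
  intro b hb
  obtain ⟨h1, h2⟩ := H b hb
  rw [hz _ b hb, hz _ b hb]
  simp only [hh]
  exact ⟨h1, h2⟩

/-- The invariant does not depend on the names of the vertices and of the edges, nor on the
functions outside the sets where they are used. -/
theorem QS.reindex {X₀ : Surf m} {P : L → (Fin m → ℂ) → X₀.X} {σ : State X₀ P ∅}
    {U : Set (Fin m' → ℂ)} {φ : (Fin m' → ℂ) → Fin m → ℂ} {h : E × Bool → V}
    {z : E × Bool → (Fin m' → ℂ) → OnePoint ℂ} {g : V → OnePoint ℂ → (Fin m' → ℂ) → σ.F.S.X}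
    {eK : K → E} {at' : K → Set L} {vL : L → V} {zL : L → (Fin m' → ℂ) → OnePoint ℂ}
    {Uc : K → Set σ.F.S.X} {u v : K → σ.F.S.X → ℂ} {t : K → (Fin m → ℂ) → ℂ}
    {uf vf : K → L → (Fin m → ℂ) → ℂ} (Q : QS σ U φ h z g eK at' vL zL Uc u v t uf vf)
    (pV : V' ≃ V) (pE : E' ≃ E)
    {h' : E' × Bool → V'} {z' : E' × Bool → (Fin m' → ℂ) → OnePoint ℂ}
    (hh : ∀ y, pV (h' y) = h (pE y.1, y.2)) (hz : ∀ y, ∀ b ∈ U, z' y b = z (pE y.1, y.2) b)
    {eK' : K → E'} (heK : ∀ k, pE (eK' k) = eK k)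
    {at'' : K → Set L} (hat : ∀ k, at'' k = at' k)
    {vL' : L → V'} {zL' : L → (Fin m' → ℂ) → OnePoint ℂ}
    (hvL : ∀ j, (∀ k, j ∉ at'' k) → pV (vL' j) = vL j)
    (hzL : ∀ j, (∀ k, j ∉ at'' k) → ∀ b ∈ U, zL' j b = zL j b)
    {uf' vf' : K → L → (Fin m → ℂ) → ℂ}
    (huf : ∀ k, ∀ j ∈ at'' k, ∀ b ∈ σ.F.B, uf' k j b = uf k j b)
    (hvf : ∀ k, ∀ j ∈ at'' k, ∀ b ∈ σ.F.B, vf' k j b = vf k j b) :
    QS σ U φ h' z' (fun v w b => g (pV v) w b) eK' at'' vL' zL' Uc u v t uf' vf' := by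
  obtain rfl : at'' = at' := funext hat
  have hnode : ∀ k, ∀ b ∈ U, g (pV (h' (eK' k, true))) (z' (eK' k, true) b) b =
      g (h (eK k, true)) (z (eK k, true) b) b := by
    intro k b hb
    rw [hh, hz _ b hb]
    simp only [heK]
  exact {
    norm := NormS.reindex Q.norm pV pE hh hz
    mem := Q.mem
    inj := fun k k' e => Q.inj (by rw [← heK, ← heK, e])
    lab := fun j hj b hb => by rw [Q.lab j hj b hb, hvL j hj, hzL j hj b hb]
    labn := fun k j hj b hb => by rw [Q.labn k j hj b hb, hnode k b hb]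
    model := Q.model
    disj := Q.disj
    node := fun k b hb => by rw [hnode k b hb]; exact Q.node k b hb
    br := fun k => Br.reindex pV pE hh hz (by rw [heK]; exact Q.br k)
    inU := fun k j hj b hb => by rw [huf k j hj b hb, hvf k j hj b hb]; exact Q.inU k j hj b hb
    off := Q.off }

/-! ### Smaller sets of parameters -/

theorem NormS.mono {S : Surf m} {U U' : Set (Fin m' → ℂ)} {φ : (Fin m' → ℂ) → Fin m → ℂ}
    {h : E × Bool → V} {z : E × Bool → (Fin m' → ℂ) → OnePoint ℂ}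
    {g : V → OnePoint ℂ → (Fin m' → ℂ) → S.X} (hN : NormS S U φ h z g) (hU : U' ⊆ U) :
    NormS S U' φ h z g where
  sep b hb := hN.sep b (hU hb)
  zc y := (hN.zc y).mono hU
  cont v := (hN.cont v).mono (prod_mono Subset.rfl hU)
  proj b hb := hN.proj b (hU hb)
  onto b hb := hN.onto b (hU hb)
  ident b hb := hN.ident b (hU hb)
  hol b hb := hN.hol b (hU hb)

theorem QS.mono {X₀ : Surf m} {P : L → (Fin m → ℂ) → X₀.X} {σ : State X₀ P ∅}
    {U U' : Set (Fin m' → ℂ)} {φ : (Fin m' → ℂ) → Fin m → ℂ} {h : E × Bool → V}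
    {z : E × Bool → (Fin m' → ℂ) → OnePoint ℂ} {g : V → OnePoint ℂ → (Fin m' → ℂ) → σ.F.S.X}
    {eK : K → E} {at' : K → Set L} {vL : L → V} {zL : L → (Fin m' → ℂ) → OnePoint ℂ}
    {Uc : K → Set σ.F.S.X} {u v : K → σ.F.S.X → ℂ} {t : K → (Fin m → ℂ) → ℂ}
    {uf vf : K → L → (Fin m → ℂ) → ℂ} (Q : QS σ U φ h z g eK at' vL zL Uc u v t uf vf)
    (hU : U' ⊆ U) : QS σ U' φ h z g eK at' vL zL Uc u v t uf vf where
  norm := NormS.mono Q.norm hU
  mem b hb := Q.mem b (hU hb)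
  inj := Q.inj
  lab j hj b hb := Q.lab j hj b (hU hb)
  labn k j hj b hb := Q.labn k j hj b (hU hb)
  model := Q.model
  disj := Q.disj
  node k b hb := Q.node k b (hU hb)
  br k b hb := Q.br k b (hU hb)
  inU := Q.inU
  off := Q.off

/-! ### Smaller models -/

/-- The model of the neck `k` may be replaced by a smaller open set, if it still contains the
sections at the node `k` and the node. -/
theorem QS.models {X₀ : Surf m} {P : L → (Fin m → ℂ) → X₀.X} {σ : State X₀ P ∅}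
    {U : Set (Fin m' → ℂ)} {φ : (Fin m' → ℂ) → Fin m → ℂ} {h : E × Bool → V}
    {z : E × Bool → (Fin m' → ℂ) → OnePoint ℂ} {g : V → OnePoint ℂ → (Fin m' → ℂ) → σ.F.S.X}
    {eK : K → E} {at' : K → Set L} {vL : L → V} {zL : L → (Fin m' → ℂ) → OnePoint ℂ}
    {Uc : K → Set σ.F.S.X} {u v : K → σ.F.S.X → ℂ} {t : K → (Fin m → ℂ) → ℂ}
    {uf vf : K → L → (Fin m → ℂ) → ℂ} (Q : QS σ U φ h z g eK at' vL zL Uc u v t uf vf)
    {Uc' : K → Set σ.F.S.X} (ho : ∀ k, IsOpen (Uc' k)) (hs : ∀ k, Uc' k ⊆ Uc k)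
    (hn : ∀ k, ∀ b ∈ U, g (h (eK k, true)) (z (eK k, true) b) b ∈ Uc' k)
    (hj : ∀ k, ∀ j ∈ at' k, ∀ b ∈ σ.F.B, σ.s j b ∈ Uc' k) :
    QS σ U φ h z g eK at' vL zL Uc' u v t uf vf where
  norm := Q.norm
  mem := Q.mem
  inj := Q.inj
  lab := Q.lab
  labn := Q.labn
  model k := (Q.model k).mono (ho k) (hs k)
  disj k k' hk := (Q.disj k k' hk).mono (hs k) (hs k')
  node k b hb := ⟨hn k b hb, (Q.node k b hb).2⟩
  br := Q.br
  inU k j hk b hb := ⟨hj k j hk b hb, (Q.inU k j hk b hb).2⟩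
  off k j hk b hb h' := Q.off k j hk b hb (hs k h')

/-! ### Smaller bases -/

section shrink

variable (F : PFam m) {B' : Set (Fin m → ℂ)} (hB' : IsOpen B') (hB : B' ⊆ F.B)

open Classical in
/-- A point of the total space over the smaller base. -/
def toSh (x₀ : (F.shrink B' hB' hB).S.X) (x : F.S.X) : (F.shrink B' hB' hB).S.X :=
  if h : F.S.π x ∈ B' then Surf.toSub (hB'.preimage F.S.cont_π) x h else x₀

theorem shInc_toSh (x₀ : (F.shrink B' hB' hB).S.X) {x : F.S.X} (hx : F.S.π x ∈ B') :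
    shInc F hB' hB (toSh F hB' hB x₀ x) = x := by
  have : toSh F hB' hB x₀ x = Surf.toSub (hB'.preimage F.S.cont_π) x hx := dif_pos hx
  rw [this]; rfl

theorem NormS.shrink (x₀ : (F.shrink B' hB' hB).S.X) {U U' : Set (Fin m' → ℂ)}
    {φ : (Fin m' → ℂ) → Fin m → ℂ} {h : E × Bool → V}
    {z : E × Bool → (Fin m' → ℂ) → OnePoint ℂ} {g : V → OnePoint ℂ → (Fin m' → ℂ) → F.S.X}
    (hN : NormS F.S U φ h z g) (hU : IsOpen U') (hUU : U' ⊆ U) (hm : ∀ b ∈ U', φ b ∈ B') :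
    NormS (F.shrink B' hB' hB).S U' φ h z (fun v w b => toSh F hB' hB x₀ (g v w b)) := by
  have hE := shInc_emb F hB' hB
  have key : ∀ b ∈ U', ∀ v w, shInc F hB' hB (toSh F hB' hB x₀ (g v w b)) = g v w b := by
    intro b hb v w
    refine shInc_toSh F hB' hB x₀ ?_
    rw [hN.proj b (hUU hb)]; exact hm b hb
  have hcont : ∀ v, ContinuousOn (fun u : OnePoint ℂ × (Fin m' → ℂ) =>
      toSh F hB' hB x₀ (g v u.1 u.2)) (univ ×ˢ U') := by
    intro v
    rw [hE.isInducing.continuousOn_iff]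
    refine ((hN.cont v).mono (prod_mono Subset.rfl hUU)).congr ?_
    rintro ⟨w, b⟩ hb
    exact key b hb.2 v w
  exact {
    sep := fun b hb => hN.sep b (hUU hb)
    zc := fun y => (hN.zc y).mono hUU
    cont := hcont
    proj := fun b hb v w => by
      have h1 : F.S.π (shInc F hB' hB (toSh F hB' hB x₀ (g v w b))) = φ b := by
        rw [key b hb]; exact hN.proj b (hUU hb) v w
      exact h1
    onto := fun b hb p hp => by
      obtain ⟨v, w, e⟩ := hN.onto b (hUU hb) (shInc F hB' hB p) hp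
      refine ⟨v, w, hE.injective ?_⟩
      rw [key b hb, e]
    ident := fun b hb v w v' w' => by
      refine Iff.trans ?_ (hN.ident b (hUU hb) v w v' w')
      constructor
      · intro e
        rw [← key b hb v w, ← key b hb v' w', e]
      · intro e
        simp only [e]
    hol := fun b hb v w f hf => by
      obtain ⟨f', hf', e⟩ := hf
      have h1 : F.S.hol (g v w b) f' := by
        have := key b hb v w
        change F.S.hol (shInc F hB' hB (toSh F hB' hB x₀ (g v w b))) f' at hf'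
        rwa [this] at hf'
      refine hol1_congr (hN.hol b (hUU hb) v w f' h1) ?_
      have h2 : ContinuousAt (fun u : OnePoint ℂ × (Fin m' → ℂ) =>
          toSh F hB' hB x₀ (g v u.1 u.2)) (w, b) :=
        (hcont v).continuousAt ((isOpen_univ.prod hU).mem_nhds ⟨mem_univ _, hb⟩)
      have h3 : ∀ᶠ p : OnePoint ℂ × (Fin m' → ℂ) in 𝓝 (w, b), p.2 ∈ U' :=
        continuousAt_snd.eventually (hU.mem_nhds hb)
      filter_upwards [h2.eventually e, h3] with p hp hp'
      rw [hp]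
      change f' (g v p.1 p.2) = f' (shInc F hB' hB (toSh F hB' hB x₀ (g v p.1 p.2)))
      rw [key p.2 hp'] }

end shrink

theorem QS.shrink {X₀ : Surf m} {P : L → (Fin m → ℂ) → X₀.X} {σ : State X₀ P ∅}
    {U U' : Set (Fin m' → ℂ)} {φ : (Fin m' → ℂ) → Fin m → ℂ} {h : E × Bool → V}
    {z : E × Bool → (Fin m' → ℂ) → OnePoint ℂ} {g : V → OnePoint ℂ → (Fin m' → ℂ) → σ.F.S.X}
    {eK : K → E} {at' : K → Set L} {vL : L → V} {zL : L → (Fin m' → ℂ) → OnePoint ℂ}
    {Uc : K → Set σ.F.S.X} {u v : K → σ.F.S.X → ℂ} {t : K → (Fin m → ℂ) → ℂ}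
    {uf vf : K → L → (Fin m → ℂ) → ℂ} (Q : QS σ U φ h z g eK at' vL zL Uc u v t uf vf)
    {B' : Set (Fin m → ℂ)} (hB' : IsOpen B') (hB : B' ⊆ σ.F.B)
    (x₀ : (σ.F.shrink B' hB' hB).S.X) (hU : IsOpen U') (hUU : U' ⊆ U)
    (hm : ∀ b ∈ U', φ b ∈ B') :
    QS (σ.shrink B' hB' hB x₀) U' φ h z (fun v w b => toSh σ.F hB' hB x₀ (g v w b)) eK at' vL zL
      (fun k => shInc σ.F hB' hB ⁻¹' Uc k) (fun k => u k ∘ shInc σ.F hB' hB)
      (fun k => v k ∘ shInc σ.F hB' hB) t uf vf := by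
  have hE := shInc_emb σ.F hB' hB
  have key : ∀ b ∈ U', ∀ v w, shInc σ.F hB' hB (toSh σ.F hB' hB x₀ (g v w b)) = g v w b := by
    intro b hb v w
    refine shInc_toSh σ.F hB' hB x₀ ?_
    rw [Q.norm.proj b (hUU hb)]; exact hm b hb
  have hs : ∀ j, ∀ b ∈ B', shInc σ.F hB' hB ((σ.shrink B' hB' hB x₀).s j b) = σ.s j b :=
    fun j b hb => shrink_s_eq σ hB' hB x₀ j hb
  have hev : ∀ (e : E × Bool), ∀ b ∈ U', ∀ᶠ p : OnePoint ℂ × (Fin m' → ℂ) in 𝓝 (z e b, b),
      p.2 ∈ U' := fun e b hb => continuousAt_snd.eventually (hU.mem_nhds hb)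
  exact {
    norm := NormS.shrink σ.F hB' hB x₀ Q.norm hU hUU hm
    mem := hm
    inj := Q.inj
    lab := fun j hj b hb => hE.injective (by
      rw [hs j _ (hm b hb), key b hb]; exact Q.lab j hj b (hUU hb))
    labn := fun k j hj b hb => hE.injective (by
      rw [hs j _ (hm b hb), key b hb]; exact Q.labn k j hj b (hUU hb))
    model := fun k => shrink_model σ hB' hB x₀ (Q.model k)
    disj := fun k k' hk => (Q.disj k k' hk).preimage _
    node := fun k b hb => by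
      obtain ⟨h1, h2, h3⟩ := Q.node k b (hUU hb)
      rw [← key b hb] at h1 h2 h3
      exact ⟨h1, h2, h3⟩
    br := fun k b hb => by
      obtain ⟨h1, h2⟩ := Q.br k b (hUU hb)
      constructor
      · filter_upwards [h1, hev (eK k, true) b hb] with p hp hp'
        rw [← key p.2 hp'] at hp
        exact hp
      · filter_upwards [h2, hev (eK k, false) b hb] with p hp hp'
        rw [← key p.2 hp'] at hp
        exact hp
    inU := fun k j hj b hb => by
      have hb' : b ∈ B' := hb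
      obtain ⟨h1, h2, h3⟩ := Q.inU k j hj b (hB hb')
      rw [← hs j b hb'] at h1 h2 h3
      exact ⟨h1, h2, h3⟩
    off := fun k j hj b hb => by
      have hb' : b ∈ B' := hb
      have h1 := Q.off k j hj b (hB hb')
      rw [← hs j b hb'] at h1
      exact h1 }

end Vale.Agent.P273.H951

end
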