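import Vale.Agent.P273.H936.TauB
import Vale.Agent.P273.H604.CutBd

/-!
# P273, crew ASY0: the cut-offs at the core marks

At a point of the cores (`1/64 ≤ |x - e_l|`, long necks) the cut-offs at the roots vanish
(`chiW_core`); near core marks (`|x| ≤ 11`) have no cut-off at all (`etaP_near`); far core marks
only the cut-off at infinity (`etaP_far`).
-/

noncomputable section

namespace Vale.Agent.P273.H951

open Set Filter H681 H95 H732 H562 H936
open H214 (Bs ff FlatOn etaP hh chiW Cf EIv EWv chiW_eventually_zero chiI_eventually_zero)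
open H604 (Rr chiI sgI Cinf etaP_formula fderiv_eq_zero_of_eventually)
open scoped Topology ContDiff

theorem norm_dL_le' {y α : Fin 3 → ℝ} {k : Fin 3} (h : 8 ≤ y k) : ‖dL y α k‖ ≤ 1 / 128 := by
  rw [norm_dL]
  have h1 : Real.exp (-(y k) / 2) ≤ 1 / y k := exp_half_le (by linarith)
  have h2 : 1 / y k ≤ 1 / 8 := one_div_le_one_div_of_le (by norm_num) h
  linarith

/-- **the cut-offs at the roots vanish on the cores** -/
theorem hh_core {y α : Fin 3 → ℝ} (hy : ∀ k, 8 ≤ y k) {x : ℂ}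
    (hx : ∀ l, 1 / 64 ≤ ‖x - ctr l‖) (i : Fin 6) :
    hh (rootsL y α) i < 32 * ‖x - rootsL y α i‖ ^ 2 := by
  have hP := pair (α := α) (fun k => (by norm_num : (4 : ℝ) ≤ 8).trans (hy k)) i
  have h1 := hP.hh_le
  have h2 : ‖sg6 i * dL y α (nk6 i)‖ ≤ 1 / 128 := by
    rw [norm_mul, norm_sg6, one_mul]
    exact norm_dL_le' (hy _)
  have h3 : ‖x - ctr (nk6 i)‖ ≤ ‖x - rootsL y α i‖ + ‖sg6 i * dL y α (nk6 i)‖ := by
    have : x - ctr (nk6 i) = (x - rootsL y α i) + sg6 i * dL y α (nk6 i) := by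
      rw [rootsL_apply]; ring
    rw [this]
    exact norm_add_le _ _
  have h4 := hx (nk6 i)
  have h5 : 1 / 128 ≤ ‖x - rootsL y α i‖ := by linarith
  have h6 := norm_nonneg (sg6 i * dL y α (nk6 i))
  nlinarith

theorem ctr_far {x : ℂ} (hx : 11 ≤ ‖x‖) (l : Fin 3) : 1 / 64 ≤ ‖x - ctr l‖ := by
  have h1 : ‖x‖ - ‖ctr l‖ ≤ ‖x - ctr l‖ := norm_sub_norm_le _ _
  have h2 : ‖ctr l‖ ≤ 11 / 2 := by
    fin_cases l <;> norm_num [ctr]
  linarith

theorem rootsL_Cf {y α : Fin 3 → ℝ} (hy : ∀ k, 4 ≤ y k) : rootsL y α ∈ Cf := (pair hy 0).hb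

/-- the cut-off at infinity starts far away -/
theorem lt_Rr {y α : Fin 3 → ℝ} (hy : ∀ k, 4 ≤ y k) {x : ℂ} (hx : ‖x‖ ≤ 11) :
    ‖x‖ < Rr (rootsL y α) := by
  have h1 := H604.norm_le_Rr (rootsL y α) 5
  have h2 : 64 * ‖dL y α 2‖ ≤ 1 := norm_dL_le (hy 2)
  have h3 : ‖ctr 2‖ ≤ ‖rootsL y α 5‖ + ‖dL y α 2‖ := by
    have h4 : ctr 2 = rootsL y α 5 - dL y α 2 := by
      rw [rootsL_apply]
      simp [nk6, sg6]
    rw [h4]
    exact norm_sub_le _ _
  have h4 : ‖ctr 2‖ = 11 / 2 := by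
    have : ctr 2 = ((11 / 2 : ℝ) : ℂ) := by unfold ctr; push_cast; norm_num
    rw [this, Complex.norm_real]
    norm_num
  linarith

section form

variable {O : Set Bs} {η : Bs → ℂ → ℂ → (Bs × ℂ →L[ℝ] ℝ)} {A : Bs → (ℂ × ℂ →L[ℝ] ℝ)}

/-- **on the cores only the cut-off at infinity is left** -/
theorem etaP_far (hF : FlatOn O η A) {y α : Fin 3 → ℝ} (hb : rootsL y α ∈ O)
    (hy : ∀ k, 8 ≤ y k) {x v : ℂ} (hx : ∀ l, 1 / 64 ≤ ‖x - ctr l‖)
    (hv : v ^ 2 = ff (rootsL y α, x)) (hv0 : v ≠ 0) :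
    etaP η A (rootsL y α) x v = (1 - chiI (rootsL y α) x) • η (rootsL y α) x v +
      (chiI (rootsL y α) x * sgI (rootsL y α) x v) •
        (Cinf η A (rootsL y α)).comp (ContinuousLinearMap.fst ℝ Bs ℂ) -
      (fderiv ℝ (fun q : Bs × ℂ => chiI q.1 q.2) (rootsL y α, x)).smulRight
        (A (rootsL y α) (EIv (rootsL y α) x v)) := by
  have hff : ff (rootsL y α, x) ≠ 0 := by rw [← hv]; exact pow_ne_zero 2 hv0
  have h1 : ∀ i, ∀ᶠ q : Bs × ℂ in 𝓝 (rootsL y α, x), chiW q.1 i q.2 = 0 := fun i =>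
    chiW_eventually_zero (p := (rootsL y α, x)) (hF.sub hb) (hh_core hy hx i)
  have h2 : ∀ i, chiW (rootsL y α) i x = 0 := fun i => (h1 i).self_of_nhds
  have h3 : ∀ i, fderiv ℝ (fun q : Bs × ℂ => chiW q.1 i q.2) (rootsL y α, x) = 0 := fun i =>
    fderiv_eq_zero_of_eventually (h1 i)
  rw [etaP_formula hF hb hff hv]
  have h4 : ∑ i, chiW (rootsL y α) i x = 0 := Finset.sum_eq_zero fun i _ => h2 i
  have h5 : ∑ i, (fderiv ℝ (fun q : Bs × ℂ => chiW q.1 i q.2) (rootsL y α, x)).smulRight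
      (A (rootsL y α) (EWv (rootsL y α) i x v)) = 0 := Finset.sum_eq_zero fun i _ => by
    rw [h3 i]
    refine ContinuousLinearMap.ext fun w => ?_
    simp
  rw [h4, h5, sub_zero, sub_zero]

/-- **at the near core marks there is no cut-off** -/
theorem etaP_near (hF : FlatOn O η A) {y α : Fin 3 → ℝ} (hb : rootsL y α ∈ O)
    (hy : ∀ k, 8 ≤ y k) {x v : ℂ} (hx : ∀ l, 1 / 64 ≤ ‖x - ctr l‖) (hx' : ‖x‖ ≤ 11)
    (hv : v ^ 2 = ff (rootsL y α, x)) (hv0 : v ≠ 0) :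
    etaP η A (rootsL y α) x v = η (rootsL y α) x v := by
  have h0 : ‖x‖ < Rr (rootsL y α) := lt_Rr (fun k => (by norm_num : (4 : ℝ) ≤ 8).trans (hy k)) hx'
  have h1 : ∀ᶠ q : Bs × ℂ in 𝓝 (rootsL y α, x), chiI q.1 q.2 = 0 :=
    chiI_eventually_zero (p := (rootsL y α, x)) h0
  have h2 : chiI (rootsL y α) x = 0 := h1.self_of_nhds
  have h3 : fderiv ℝ (fun q : Bs × ℂ => chiI q.1 q.2) (rootsL y α, x) = 0 :=
    fderiv_eq_zero_of_eventually (f := fun q : Bs × ℂ => chiI q.1 q.2) h1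
  rw [etaP_far hF hb hy hx hv hv0, h2, h3]
  refine ContinuousLinearMap.ext fun w => ?_
  simp

end form

end Vale.Agent.P273.H951

end
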