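import Vale.Agent.P273.H728.ExtOf

/-!
The positions of the marks and of the half-edges in the coordinates of the region are different on
each component, at a point of the open stratum.
-/

noncomputable section

namespace Vale.Agent.P273.H951

open Set H183 H837 H93 H95 H728

variable {V E V' E' : Type} {m : ℕ} {T : RB} {S : Mk → Bool}

/-- **The positions are different.** If the positions on the stratum of `h` and in the region
correspond, the positions in the region are different on each vertex of any graph `h'` of the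
region. -/
theorem dis {h : (E × Bool) ⊕ Mk → V} {nm : V → Bool ⊕ (Fin 3 × ℕ)} {ge : E → Fin 3 × ℕ}
    (H : Lab T h nm ge) {c : Coord h m} {b : Fin m → ℂ} (hb : b ∈ c.base)
    {A : V → Matrix (Fin 2) (Fin 2) ℂ} {p : (rg T).Sp}
    (hz : ∀ y, pt b (c.c y) = mob (A (h y)) (zz T S ge p y))
    {h' : (E' × Bool) ⊕ Mk → V'} {nm' : V' → Bool ⊕ (Fin 3 × ℕ)} {ge' : E' → Fin 3 × ℕ}
    (H' : Lab T h' nm' ge') (y y' : (E' × Bool) ⊕ Mk) (h1 : h' y = h' y')
    (h2 : zz T S ge' p y = zz T S ge' p y') : y = y' := by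
  have e1 : ∀ e', ∃ e, ge e = ge' e' := fun e => (H.ge_ran _ _).2 ((H'.ge_ran _ _).1 ⟨e, rfl⟩)
  choose f hf using e1
  have hfi : Function.Injective f := fun e e' he => H'.ge_inj (by rw [← hf, ← hf, he])
  let Q : (E' × Bool) ⊕ Mk → (E × Bool) ⊕ Mk := Sum.map (fun q => (f q.1, q.2)) id
  have hQ : Function.Injective Q := by
    refine Function.Injective.sumMap (fun q q' hq => ?_) Function.injective_id
    exact Prod.ext (hfi (Prod.mk.inj hq).1) (Prod.mk.inj hq).2
  have hn : ∀ y, nm (h (Q y)) = nm' (h' y) := by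
    rintro (⟨e, s⟩ | x)
    · change nm (h (Sum.inl (f e, s))) = _
      rw [H.edge, H'.edge, hf]
    · change nm (h (Sum.inr x)) = _
      rw [H.leg, H'.leg]
  have hzz : ∀ y, zz T S ge p (Q y) = zz T S ge' p y := by
    rintro (⟨e, s⟩ | x)
    · change H728.hz T (ge (f e)).1 (ge (f e)).2 s = H728.hz T (ge' e).1 (ge' e).2 s
      rw [hf]
    · rfl
  have h3 : h (Q y) = h (Q y') := H.nm_inj (by rw [hn, hn, h1])
  refine hQ (hb _ _ h3 ?_)
  rw [hz, hz, hzz, hzz, h3, h2]

/-- The marks on one component have different positions. -/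
theorem dis_leg {h : (E × Bool) ⊕ Mk → V} {nm : V → Bool ⊕ (Fin 3 × ℕ)} {ge : E → Fin 3 × ℕ}
    (H : Lab T h nm ge) {c : Coord h m} {b : Fin m → ℂ} (hb : b ∈ c.base)
    {A : V → Matrix (Fin 2) (Fin 2) ℂ} {p : (rg T).Sp}
    (hz : ∀ y, pt b (c.c y) = mob (A (h y)) (zz T S ge p y)) (i j : Mk)
    (h1 : T.comp i = T.comp j) (h2 : mz T S p i = mz T S p j) : i = j := by
  have e := dis H hb hz H (Sum.inr i) (Sum.inr j)
    (H.nm_inj (by rw [H.leg, H.leg, h1])) h2
  exact Sum.inr_injective e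

/-- A mark is not at the position of a half-edge of its component. -/
theorem dis_half {h : (E × Bool) ⊕ Mk → V} {nm : V → Bool ⊕ (Fin 3 × ℕ)} {ge : E → Fin 3 × ℕ}
    (H : Lab T h nm ge) {c : Coord h m} {b : Fin m → ℂ} (hb : b ∈ c.base)
    {A : V → Matrix (Fin 2) (Fin 2) ℂ} {p : (rg T).Sp}
    (hz : ∀ y, pt b (c.c y) = mob (A (h y)) (zz T S ge p y)) (x : Mk) (k : Fin 3) (i : ℕ)
    (hi : i < (T.B k).card) (s : Bool) (h1 : T.comp x = lb T k (if s then i else i + 1)) :
    mz T S p x ≠ H728.hz T k i s := by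
  intro h2
  obtain ⟨e, he⟩ := (H.ge_ran k i).2 hi
  have e1 := dis H hb hz H (Sum.inr x) (Sum.inl (e, s))
    (H.nm_inj (by rw [H.leg, H.edge, he, h1])) (by
      change mz T S p x = H728.hz T (ge e).1 (ge e).2 s
      rw [he]; exact h2)
  cases e1

end Vale.Agent.P273.H951

end
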