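import Vale.Agent.P273.H93.Enc
import Vale.Agent.P273.H228.Graph

/-!
The graph of a word at a stratum with nine nodes (two cores joined by three chains with
`p, q - p, 6 - q` free components) is the theta graph `thE e p q σ`; the data of a good region.
-/

namespace Vale.Agent.P273.H951

open Sum Finset Vale.Agent.P273.H93 Vale.Agent.P273.Z
open Vale.Agent.P273.H228 (VC EC toV cp gr fr)

/-- The label of a vertex of the theta graph. -/
def vR (p q : ℕ) : Option (Fin 7) → Bool ⊕ (Fin 3 × ℕ)
  | none => inl false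
  | some t => if t.1 < 6 then inr (ch p q t, t.1 - off p q (ch p q t) + 1) else inl true

/-- The place of an edge of the theta graph. -/
def eR (p q : ℕ) : Fin 3 ⊕ Fin 6 → Fin 3 × ℕ
  | inl k => (k, 0)
  | inr t => (ch p q t, t.1 - off p q (ch p q t) + 1)

/-- The label of the component `r` of the chain `k`. -/
def cR (p q : ℕ) (k : Fin 3) (r : ℕ) : Bool ⊕ (Fin 3 × ℕ) :=
  if r = 0 then inl false else if r ≤ len p q k then inr (k, r) else inl true

theorem vR_he : ∀ p q : Fin 7, p ≤ q → ∀ (y : Fin 3 ⊕ Fin 6) (s : Bool),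
    vR p q (H93.he p q (y, s)) = cR p q (eR p q y).1
      (if s = true then (eR p q y).2 else (eR p q y).2 + 1) := by
  decide +kernel

theorem toV_cR {p q : ℕ} {f : Fin 3 → ℕ} (hf : ∀ k, f k = len p q k) (k : Fin 3) (r : ℕ) :
    toV f (cR p q k r) = cp f k r := by
  unfold cR cp
  by_cases h0 : r = 0
  · rw [if_pos h0, if_pos h0]; rfl
  · rw [if_neg h0, if_neg h0]
    by_cases h1 : r ≤ len p q k
    · rw [if_pos h1]
    · rw [if_neg h1]
      change inl true = dite _ _ _
      rw [dif_neg]
      change ¬ (1 ≤ r ∧ r ≤ f k)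
      rw [hf]
      omega

section

variable {p q : ℕ}

theorem eR_le (hp : p ≤ q) (hq : q ≤ 6) (y : Fin 3 ⊕ Fin 6) :
    (eR p q y).2 ≤ len p q (eR p q y).1 := by
  rcases y with k | t
  · exact Nat.zero_le _
  · change t.1 - off p q (ch p q t) + 1 ≤ len p q (ch p q t)
    have := off_le hp hq t.2
    omega

/-- The edges of the theta graph. -/
noncomputable def pE {f : Fin 3 → ℕ} (hp : p ≤ q) (hq : q ≤ 6) (hf : ∀ k, f k = len p q k) :
    Fin 3 ⊕ Fin 6 ≃ EC f :=
  Equiv.ofBijective (fun y => ⟨eR p q y, by rw [hf]; exact eR_le hp hq y⟩) <| by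
    constructor
    · intro y y' h
      have h1 : eR p q y = eR p q y' := congrArg Subtype.val h
      rcases y with k | t <;> rcases y' with k' | t'
      · rw [show k = k' from congrArg Prod.fst h1]
      · have := congrArg Prod.snd h1
        change 0 = _ + 1 at this
        omega
      · have := congrArg Prod.snd h1
        change _ + 1 = 0 at this
        omega
      · rw [Fin.ext (pos_eq hp hq t.2 t'.2 (congrArg Prod.fst h1) (congrArg Prod.snd h1))]
    · rintro ⟨⟨k, i⟩, hi⟩
      change i ≤ f k at hi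
      rw [hf] at hi
      rcases i with _ | i
      · exact ⟨inl k, Subtype.ext rfl⟩
      · have h3 := off_add_len hp hq k
        have hk : ch p q (off p q k + i) = k :=
          (ch_iff hp hq (by omega) k).2 ⟨by omega, by omega⟩
        refine ⟨inr ⟨off p q k + i, by omega⟩, Subtype.ext ?_⟩
        change (ch p q (off p q k + i), off p q k + i - off p q (ch p q (off p q k + i)) + 1) = _
        rw [hk, Nat.add_sub_cancel_left]

theorem pE_val {f : Fin 3 → ℕ} (hp : p ≤ q) (hq : q ≤ 6) (hf : ∀ k, f k = len p q k)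
    (y : Fin 3 ⊕ Fin 6) : (pE hp hq hf y).1 = eR p q y := rfl

/-- The vertices of the theta graph. -/
noncomputable def pV {f : Fin 3 → ℕ} (hp : p ≤ q) (hq : q ≤ 6) (hf : ∀ k, f k = len p q k) :
    Option (Fin 7) ≃ VC f :=
  Equiv.ofBijective (fun v => toV f (vR p q v)) <| by
    have key : ∀ t : Fin 7, t.1 < 6 → 1 ≤ t.1 - off p q (ch p q t) + 1 ∧
        t.1 - off p q (ch p q t) + 1 ≤ f (ch p q t) := by
      intro t ht
      have := off_le hp hq ht
      rw [hf]
      omega
    have h1 : ∀ (t : Fin 7) (ht : t.1 < 6), toV f (vR p q (some t)) =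
        inr ⟨(ch p q t, t.1 - off p q (ch p q t) + 1), key t ht⟩ := by
      intro t ht
      rw [vR, if_pos ht, toV, dif_pos (key t ht)]
    have h2 : ∀ t : Fin 7, ¬ t.1 < 6 → toV f (vR p q (some t)) = inl true := by
      intro t ht
      rw [vR, if_neg ht]
      rfl
    have h3 : toV f (vR p q none) = inl false := rfl
    constructor
    · rintro (_ | t) (_ | t') h <;> dsimp only at h
      · rfl
      · by_cases ht' : t'.1 < 6
        · rw [h3, h1 t' ht'] at h; cases h
        · rw [h3, h2 t' ht'] at h; cases h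
      · by_cases ht : t.1 < 6
        · rw [h3, h1 t ht] at h; cases h
        · rw [h3, h2 t ht] at h; cases h
      · by_cases ht : t.1 < 6 <;> by_cases ht' : t'.1 < 6
        · rw [h1 t ht, h1 t' ht'] at h
          have h4 := congrArg Subtype.val (Sum.inr.inj h)
          congr 1
          exact Fin.ext (pos_eq hp hq ht ht' (congrArg Prod.fst h4) (congrArg Prod.snd h4))
        · rw [h1 t ht, h2 t' ht'] at h; cases h
        · rw [h2 t ht, h1 t' ht'] at h; cases h
        · congr 1
          exact Fin.ext (by omega)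
    · rintro (b | ⟨⟨k, r⟩, hr1, hr2⟩)
      · cases b
        · exact ⟨none, rfl⟩
        · exact ⟨some 6, h2 6 (by decide)⟩
      · change 1 ≤ r at hr1
        change r ≤ f k at hr2
        rw [hf] at hr2
        have h5 := off_add_len hp hq k
        have hk : ch p q (off p q k + r - 1) = k :=
          (ch_iff hp hq (by omega) k).2 ⟨by omega, by omega⟩
        refine ⟨some ⟨off p q k + r - 1, by omega⟩, ?_⟩
        change toV f (vR p q (some _)) = _
        rw [h1 ⟨off p q k + r - 1, by omega⟩ (by change off p q k + r - 1 < 6; omega)]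
        congr 1
        refine Subtype.ext ?_
        change (ch p q (off p q k + r - 1),
          off p q k + r - 1 - off p q (ch p q (off p q k + r - 1)) + 1) = (k, r)
        rw [hk]
        congr 1
        omega

theorem pV_apply {f : Fin 3 → ℕ} (hp : p ≤ q) (hq : q ≤ 6) (hf : ∀ k, f k = len p q k)
    (v : Option (Fin 7)) : pV hp hq hf v = toV f (vR p q v) := rfl

theorem pV_none {f : Fin 3 → ℕ} (hp : p ≤ q) (hq : q ≤ 6) (hf : ∀ k, f k = len p q k) :
    pV hp hq hf none = inl false := rfl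

theorem pV_six {f : Fin 3 → ℕ} (hp : p ≤ q) (hq : q ≤ 6) (hf : ∀ k, f k = len p q k) :
    pV hp hq hf (some 6) = inl true := rfl

theorem pV_lg {f : Fin 3 → ℕ} (hp : p ≤ q) (hq : q ≤ 6) (hf : ∀ k, f k = len p q k)
    (e : Bool → Bool) (b : Bool) (t : Fin 7) : pV hp hq hf (lg e b t) =
      toV f (if t.1 < 6 then inr (ch p q t, t.1 - off p q (ch p q t) + 1) else inl (e b)) := by
  rw [pV_apply]
  congr 1
  unfold lg
  by_cases ht : t.1 < 6
  · have h6 : t ≠ 6 := fun h => by rw [h] at ht; exact absurd ht (by decide)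
    rw [if_neg (fun h => h6 h.1), if_pos ht, vR, if_pos ht]
  · have h6 : t = 6 := Fin.ext (by change t.1 = 6; omega)
    subst h6
    rw [if_neg ht]
    cases hb : e b
    · rw [if_pos ⟨rfl, rfl⟩]; rfl
    · rw [if_neg (by simp)]; rfl

/-- The half-edges of the theta graph. -/
noncomputable def pEB {f : Fin 3 → ℕ} (hp : p ≤ q) (hq : q ≤ 6) (hf : ∀ k, f k = len p q k) :
    (Fin 3 ⊕ Fin 6) × Bool ≃ EC f × Bool := Equiv.prodCongr (pE hp hq hf) (Equiv.refl Bool)

theorem pEB_not {f : Fin 3 → ℕ} (hp : p ≤ q) (hq : q ≤ 6) (hf : ∀ k, f k = len p q k)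
    (y : Fin 3 ⊕ Fin 6) (s : Bool) :
    pEB hp hq hf (y, !s) = ((pEB hp hq hf (y, s)).1, !(pEB hp hq hf (y, s)).2) := rfl

/-- **The graph of the word is the theta graph** (in the form of `Norm.reindex`). -/
theorem pV_thE {f : Fin 3 → ℕ} (hp : p ≤ q) (hq : q ≤ 6) (hf : ∀ k, f k = len p q k)
    (e : Bool → Bool) (σ : Bool → Equiv.Perm (Fin 7)) {lab : Mk → VC f}
    (hlab : ∀ x : Mk, lab x = toV f (if (σ x.2 x.1).1 < 6 then
      inr (ch p q (σ x.2 x.1), (σ x.2 x.1).1 - off p q (ch p q (σ x.2 x.1)) + 1)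
      else inl (e x.2)))
    (y : ((Fin 3 ⊕ Fin 6) × Bool) ⊕ Mk) :
    pV hp hq hf (thE e p q σ y) = gr f lab (Sum.map (pEB hp hq hf) (Equiv.refl Mk) y) := by
  rcases y with ⟨y, s⟩ | x
  · have h1 := vR_he ⟨p, by omega⟩ ⟨q, by omega⟩ hp y s
    change toV f (vR p q (H93.he p q (y, s))) = H228.he f (pE hp hq hf y, s)
    change vR p q (H93.he p q (y, s)) = _ at h1
    rw [h1, toV_cR hf]
    rfl
  · change pV hp hq hf (lg e x.2 (σ x.2 x.1)) = lab x
    rw [pV_lg, hlab]

end

/-! ### The data of a region -/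

/-- The positions of the marks: the number of free components of the chains are `p, q - p, 6 - q`,
and the mark `(i, b)` is in the component with the position `σ b i`, in the core `e b` for the
position `6`. -/
structure Code (T : RB) (e : Bool → Bool) (p q : ℕ) (σ : Bool → Equiv.Perm (Fin 7)) : Prop where
  hp : p ≤ q
  hq : q ≤ 6
  card : ∀ k, (T.B k).card = len p q k + 1
  comp : ∀ x : Mk, T.comp x = if (σ x.2 x.1).1 < 6 then
    inr (ch p q (σ x.2 x.1), (σ x.2 x.1).1 - off p q (ch p q (σ x.2 x.1)) + 1) else inl (e x.2)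

/-- The explicit regions. -/
theorem code_enc {p q : ℕ} (f : Fin 6 → Bool) (o : Bool) (hp : p ≤ q) (hq : q ≤ 6)
    (σ : Bool → Equiv.Perm (Fin 7)) (e : Bool → Bool) (loc : Bool → Option (Fin 3)) :
    Code (enc f o hp hq σ e loc) e p q σ := by
  refine ⟨hp, hq, fun k => enc_B_card hp hq σ k, fun x => ?_⟩
  by_cases hx : (σ x.2 x.1).1 < 6
  · rw [if_pos hx, enc_comp_lt hp hq σ hx]
  · rw [if_neg hx, enc_comp_six hp hq σ hx]

variable {T : RB}

/-- The number of free components of the complete word. -/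
theorem fr_n (T : RB) (k : Fin 3) : fr T T.n k = (T.B k).card - 1 := by
  unfold fr
  have h1 : (T.B k).card ≤ ((T.B k).filter (· < T.n k)).card + 1 := by
    have h2 : T.B k ⊆ insert (T.n k) ((T.B k).filter (· < T.n k)) := by
      intro i hi
      rw [Finset.mem_insert, Finset.mem_filter]
      have h3 : i ≤ T.n k := T.sub k i hi
      rcases h3.lt_or_eq with h | h
      · exact Or.inr ⟨hi, h⟩
      · exact Or.inl h
    exact (Finset.card_le_card h2).trans (Finset.card_insert_le _ _)
  omega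

variable {e : Bool → Bool} {p q : ℕ} {σ : Bool → Equiv.Perm (Fin 7)}

theorem Code.fr (h : Code T e p q σ) (k : Fin 3) : H228.fr T T.n k = len p q k := by
  rw [fr_n, h.card]; rfl

/-- **The graph of the complete word of a region is the theta graph of its data**, for any list
`l : L ≃ Mk` of the marks. -/
theorem Code.stG {L : Type} (h : Code T e p q σ) (l : L ≃ Mk)
    (y : ((Fin 3 ⊕ Fin 6) × Bool) ⊕ Mk) :
    pV h.hp h.hq h.fr (thE e p q σ y) =
      H228.stG T T.n l (Sum.map (pEB h.hp h.hq h.fr) l.symm y) := by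
  rw [pV_thE h.hp h.hq h.fr e σ (lab := fun x => toV _ (T.comp x)) (fun x => by rw [h.comp])]
  rcases y with y | x
  · rfl
  · change toV _ (T.comp x) = toV _ (T.comp (l (l.symm x)))
    rw [Equiv.apply_symm_apply]

theorem comp_free {x : Mk} {k : Fin 3} {r : ℕ} (h : T.comp x = inr (k, r)) :
    1 ≤ r ∧ r < (T.B k).card := by
  obtain ⟨-, h2, h3, h4⟩ := RB.comp_eq_inr.1 h
  refine ⟨h3, lt_of_le_of_ne ?_ h4⟩
  rw [← h2]
  exact Finset.card_le_card (Finset.filter_subset _ _)

open Classical in
/-- **A good region has the data of a theta graph.** -/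
theorem exists_code (hT : T.Good) : ∃ e p q σ, Code T e p q σ := by
  obtain ⟨h9, hty, hfree⟩ := hT
  have hc : ∀ k, 1 ≤ (T.B k).card := fun k => Finset.card_pos.2 (T.ne k)
  rw [Fin.sum_univ_three] at h9
  have c0 := hc 0
  have c1 := hc 1
  have c2 := hc 2
  obtain ⟨p, hp⟩ : ∃ p, p = (T.B 0).card - 1 := ⟨_, rfl⟩
  obtain ⟨q, hq⟩ : ∃ q, q = p + ((T.B 1).card - 1) := ⟨_, rfl⟩
  have h3 : p ≤ q := by omega
  have h4 : q ≤ 6 := by omega
  have hcard : ∀ k, (T.B k).card = len p q k + 1 := by
    intro k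
    fin_cases k
    · change (T.B 0).card = p + 1; omega
    · change (T.B 1).card = (q - p) + 1; omega
    · change (T.B 2).card = (6 - q) + 1; omega
  obtain ⟨τ, hτ1, hτ2⟩ : ∃ τ : Bool ⊕ (Fin 3 × ℕ) → Fin 7, (∀ b, τ (inl b) = 6) ∧
      ∀ k r, τ (inr (k, r)) = Fin.ofNat 7 (off p q k + r - 1) :=
    ⟨Sum.elim (fun _ => 6) fun y => Fin.ofNat 7 (off p q y.1 + y.2 - 1), fun _ => rfl,
      fun _ _ => rfl⟩
  have key : ∀ {x : Mk} {k : Fin 3} {r : ℕ}, T.comp x = inr (k, r) →
      (τ (T.comp x)).1 = off p q k + r - 1 ∧ off p q k + r - 1 < 6 ∧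
        ch p q (off p q k + r - 1) = k ∧ 1 ≤ r := by
    intro x k r h
    obtain ⟨h1, h2⟩ := comp_free h
    rw [hcard] at h2
    have h5 := off_add_len h3 h4 k
    have h6 : off p q k + r - 1 < 6 := by omega
    refine ⟨?_, h6, (ch_iff h3 h4 h6 k).2 ⟨by omega, by omega⟩, h1⟩
    rw [h, hτ2, Fin.val_ofNat]
    omega
  have hinj : ∀ (b : Bool) (i j : Fin 7), τ (T.comp (i, b)) ≠ 6 →
      τ (T.comp (i, b)) = τ (T.comp (j, b)) → i = j := by
    intro b i j hi hij
    rcases h1 : T.comp (i, b) with b1 | ⟨k, r⟩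
    · rw [h1, hτ1] at hi; exact absurd rfl hi
    rcases h2 : T.comp (j, b) with b2 | ⟨k', r'⟩
    · rw [h2, hτ1] at hij; exact absurd hij hi
    obtain ⟨h5, h6, h7, h8⟩ := key h1
    obtain ⟨h5', h6', h7', h8'⟩ := key h2
    have h9 := congrArg Fin.val hij
    rw [h5, h5'] at h9
    have h10 : k = k' := by rw [← h7, h9, h7']
    subst h10
    have h11 : r = r' := by omega
    exact congrArg Prod.fst (hty (i, b) (j, b) rfl (by rw [h1, h2, h11]))
  have hsurj : ∀ b : Bool, Function.Surjective fun i : Fin 7 => τ (T.comp (i, b)) := by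
    intro b t
    by_cases ht : t.1 < 6
    · have h5 := off_le h3 h4 ht
      obtain ⟨x, y, hxy, hx, hy⟩ := hfree (ch p q t) (t.1 - off p q (ch p q t) + 1) (by omega)
        (by rw [hcard]; omega)
      have h8 : x.2 ≠ y.2 := fun h => hxy (hty x y h (hx.trans hy.symm))
      have h10 : ∀ z : Mk, T.comp z = inr (ch p q t, t.1 - off p q (ch p q t) + 1) → z.2 = b →
          ∃ i : Fin 7, τ (T.comp (i, b)) = t := by
        rintro ⟨i, b'⟩ hz hb
        change b' = b at hb
        subst hb
        refine ⟨i, Fin.ext ?_⟩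
        rw [(key hz).1]
        omega
      by_cases hb : x.2 = b
      · exact h10 x hx hb
      · refine h10 y hy ?_
        revert h8 hb
        cases x.2 <;> cases y.2 <;> cases b <;> simp
    · have ht6 : t = 6 := by
        refine Fin.ext ?_
        change t.1 = 6
        omega
      subst ht6
      by_contra hcon
      have h5 : ∀ i : Fin 7, τ (T.comp (i, b)) ≠ 6 := fun i hi => hcon ⟨i, hi⟩
      have h6 : Function.Injective fun i : Fin 7 => τ (T.comp (i, b)) :=
        fun i j hij => hinj b i j (h5 i) hij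
      exact hcon (Finite.injective_iff_surjective.1 h6 6)
  have hbij : ∀ b : Bool, Function.Bijective fun i : Fin 7 => τ (T.comp (i, b)) := fun b =>
    ⟨Finite.injective_iff_surjective.2 (hsurj b), hsurj b⟩
  refine ⟨fun b => decide (∃ i, T.comp (i, b) = inl true), p, q,
    fun b => Equiv.ofBijective _ (hbij b), h3, h4, hcard, ?_⟩
  rintro ⟨i, b⟩
  change T.comp (i, b) = if (τ (T.comp (i, b))).1 < 6 then inr (ch p q (τ (T.comp (i, b))),
    (τ (T.comp (i, b))).1 - off p q (ch p q (τ (T.comp (i, b)))) + 1) else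
      inl (decide (∃ i, T.comp (i, b) = inl true))
  rcases h1 : T.comp (i, b) with b1 | ⟨k, r⟩
  · rw [hτ1, if_neg (by decide)]
    congr 1
    cases b1
    · refine (decide_eq_false ?_).symm
      rintro ⟨j, hj⟩
      have h5 : τ (T.comp (i, b)) = τ (T.comp (j, b)) := by rw [h1, hj, hτ1, hτ1]
      have h6 : i = j := (hbij b).1 h5
      rw [h6, hj] at h1
      cases h1
    · exact (decide_eq_true ⟨i, h1⟩).symm
  · obtain ⟨h5, h6, h7, h8⟩ := key h1
    rw [← h1, h5, if_pos h6, h7, h1]
    congr 2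
    omega

end Vale.Agent.P273.H951
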