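import Vale.Agent.P273.H591.Step
import Vale.Agent.P273.H469.NodeInst
import Vale.Agent.P273.H469.Sec
import Vale.Agent.P273.H949.NodeInh
import Vale.Agent.P273.H949.QStab

/-!
One step of the insertion of projective lines at the nodes of the necks, over an open stratum: the
inserted line is the one of `H469.NodeData`, and the absence of vector fields is inherited.
-/

noncomputable section

namespace Vale.Agent.P273.H951

open Set Filter Topology H183 H837 H395 H948 H591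

variable {V E K L : Type} {m m' : ℕ}

variable {X₀ : Surf m} {P : L → (Fin m → ℂ) → X₀.X} {σ : State X₀ P ∅}
    {U : Set (Fin m' → ℂ)} {φ : (Fin m' → ℂ) → Fin m → ℂ} {h : E × Bool → V}
    {z : E × Bool → (Fin m' → ℂ) → OnePoint ℂ} {g : V → OnePoint ℂ → (Fin m' → ℂ) → σ.F.S.X}
    {eK : K → E} {at' : K → Set L} {vL : L → V} {zL : L → (Fin m' → ℂ) → OnePoint ℂ}
    {Uc : K → Set σ.F.S.X} {u v : K → σ.F.S.X → ℂ} {t : K → (Fin m → ℂ) → ℂ}
    {uf vf : K → L → (Fin m → ℂ) → ℂ}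

namespace QS

open Classical in
/-- **One step** (`H591.QS.step`), with a property `Pr` of the new surface and the new positions. -/
theorem step_pr (hU : IsOpen U) (hne : U.Nonempty)
    (hφ : ∀ b ∈ U, AnalyticAt ℂ φ b) (Q : QS σ U φ h z g eK at' vL zL Uc u v t uf vf) (k : K)
    {N' : Surf m} {M : Modif σ.F.S N'} {τ₀ τ₁ : (Fin m → ℂ) → ℂ} {a : N'.X → OnePoint ℂ}
    {af ai : N'.X → ℂ} (H : NodeMod M (Uc k) (u k) (v k) τ₀ τ₁ a af ai) (hF : M.Fib)
    (hτ : ∀ b ∈ U, τ₀ (φ b) = 0 ∧ τ₁ (φ b) = 0)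
    (hZ : ∀ b ∈ σ.F.B, τ₀ b = 0 → τ₁ b = 0 → (∀ j, X₀.SmoothAt (P j b)) →
      ¬ ∀ i j, P i b = P j b → i = j)
    (mu : L → (Fin m → ℂ) → ℂ) (hmu : ∀ j ∈ at' k, ∀ b ∈ σ.F.B, AnalyticAt ℂ (mu j) b ∧
      uf k j b = τ₀ b * mu j b ∧ mu j b * vf k j b = τ₁ b)
    {ε : ℝ} (hε : 0 < ε) (sm : Set L) (hsm : ∀ j ∈ sm, j ∈ at' k ∧ (∀ b ∈ σ.F.B, ‖mu j b‖ < ε) ∧
      ∀ b ∈ U, mu j (φ b) = 0)
    (hlg : ∀ j ∈ at' k, j ∉ sm → ∀ b ∈ σ.F.B, ε < ‖mu j b‖)
    (Pr : ∀ T : Surf m, (L → (Fin m → ℂ) → T.X) → Prop)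
    (hPr : ∀ s' : L → (Fin m → ℂ) → M.T.X, (∀ j, ∀ b ∈ σ.F.B, M.r (s' j b) = σ.s j b) →
      (∀ j ∈ at' k, ∀ b ∈ σ.F.B, ∃ y, s' j b = M.ιN y ∧ M.ρ y = σ.s j b ∧
        a y = (mu j b : OnePoint ℂ)) → Pr M.T s') :
    ∃ (σ' : State X₀ P ∅) (_ : σ'.F.B = σ.F.B)
      (g' : Option V → OnePoint ℂ → (Fin m' → ℂ) → σ'.F.S.X) (Uc' : K → Set σ'.F.S.X)
      (u' v' : K → σ'.F.S.X → ℂ) (t' : K → (Fin m → ℂ) → ℂ),
      QS σ' U φ (hI h (eK k)) (zI z (eK k)) g'
        (fun k' => if k' = k then none else some (eK k'))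
        (fun k' => if k' = k then sm else at' k')
        (fun j => if j ∈ at' k then none else some (vL j))
        (fun j => if j ∈ at' k then fun b => ((mu j (φ b) : ℂ) : OnePoint ℂ) else zL j)
        Uc' u' v' t' (fun k' => if k' = k then mu else uf k') vf ∧ Pr σ'.F.S σ'.s := by
  -- labels
  obtain ⟨b₁, hb₁⟩ := id hne
  have hBne : φ b₁ ∈ σ.F.B := Q.mem b₁ hb₁
  have hdisjL : ∀ k' j, k' ≠ k → j ∈ at' k' → j ∉ at' k := by
    intro k' j hk hj hj'
    exact disjoint_left.1 (Q.disj k' k hk) (Q.inU k' j hj _ hBne).1 (Q.inU k j hj' _ hBne).1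
  have hZU : ∀ x ∈ M.Z, x ∈ Uc k := by
    intro x hx
    rw [H.Z_eq] at hx
    exact hx.1
  have hoffZ : ∀ j ∉ at' k, ∀ b ∈ σ.F.B, σ.s j b ∉ M.Z := fun j hj b hb hz =>
    Q.off k j hj b hb (hZU _ hz)
  -- the points of the new surface
  have exY : ∀ j ∈ at' k, ∀ b ∈ σ.F.B, ∃ y, M.ρ y = σ.s j b ∧ a y = (mu j b : OnePoint ℂ) := by
    intro j hj b hb
    obtain ⟨h1, h2, h3⟩ := Q.inU k j hj b hb
    obtain ⟨-, h4, h5⟩ := hmu j hj b hb
    have hπ : σ.F.S.π (σ.s j b) = b := (σ.sec j b hb).1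
    refine H.ex _ h1 _ (fun c hc => ?_) fun c hc => ?_
    · rw [← OnePoint.coe_injective hc, hπ, h2, h3]
      exact ⟨h4, h5⟩
    · have hc0 : c ≠ 0 := by
        rintro rfl
        rw [H395.inf_zero] at hc
        exact OnePoint.coe_ne_infty _ hc
      have hc1 : mu j b = c⁻¹ := by
        have : inf c = ((c⁻¹ : ℂ) : OnePoint ℂ) := if_neg hc0
        rw [this] at hc
        exact OnePoint.coe_injective hc
      rw [hπ, h2, h3, h4, ← h5, hc1]
      constructor
      · field_simp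
      · field_simp
  obtain ⟨y₁⟩ : Nonempty N'.X := by
    obtain ⟨x₁, hx₁⟩ : ∃ x, x ∈ M.Z := by
      refine ⟨g (h (eK k, true)) (z (eK k, true) b₁) b₁, ?_⟩
      rw [H.Z_eq]
      obtain ⟨h1, h2, h3⟩ := Q.node k b₁ hb₁
      exact ⟨h1, h2, h3, by rw [Q.norm.proj b₁ hb₁]; exact (hτ b₁ hb₁).1,
        by rw [Q.norm.proj b₁ hb₁]; exact (hτ b₁ hb₁).2⟩
    obtain ⟨y, -⟩ := (hF x₁ hx₁).nonempty
    exact ⟨y⟩
  have : Nonempty N'.X := ⟨y₁⟩
  set Y : L → (Fin m → ℂ) → N'.X := fun j b =>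
    Classical.epsilon fun y => M.ρ y = σ.s j b ∧ a y = (mu j b : OnePoint ℂ) with hYd
  have hY : ∀ j ∈ at' k, ∀ b ∈ σ.F.B, M.ρ (Y j b) = σ.s j b ∧ a (Y j b) = (mu j b : OnePoint ℂ) :=
    fun j hj b hb => Classical.epsilon_spec (exY j hj b hb)
  have hYsec : ∀ j ∈ at' k, IsSec N' σ.F.B (Y j) := by
    intro j hj b hb
    obtain ⟨hy1, hy2⟩ := hY j hj b hb
    obtain ⟨h1, h2, h3⟩ := Q.inU k j hj b hb
    have hcY : ContinuousAt (Y j) b := by
      rw [H.emb.continuousAt_iff]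
      have h4 : ContinuousAt (fun b => (σ.s j b, (mu j b : OnePoint ℂ))) b :=
        (σ.sec j b hb).2.1.prodMk
          (OnePoint.continuous_coe.continuousAt.comp (hmu j hj b hb).1.continuousAt)
      refine h4.congr ?_
      filter_upwards [σ.F.openB.mem_nhds hb] with b' hb'
      obtain ⟨h5, h6⟩ := hY j hj b' hb'
      exact (Prod.ext h5 h6).symm
    refine ⟨?_, hcY, fun f hf => ?_⟩
    · rw [← M.hπ, hy1]; exact (σ.sec j b hb).1
    · have hmem : Y j b ∈ {y | a y ≠ OnePoint.infty} := by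
        change a _ ≠ _
        rw [hy2]; exact OnePoint.coe_ne_infty _
      obtain ⟨q, hq, hq'⟩ := (H.m0.hol _ hmem f).1 hf
      have hE : ∀ b' ∈ σ.F.B, Emap N'.π af (fun y => v k (M.ρ y)) (Y j b') =
          (b', mu j b', v k (σ.s j b')) := by
        intro b' hb'
        obtain ⟨h5, h6⟩ := hY j hj b' hb'
        simp only [Emap]
        rw [← M.hπ, h5, (σ.sec j b' hb').1, H.af_eq _ _ h6]
      rw [hE b hb] at hq
      have h7 : AnalyticAt ℂ (fun b' => q (b', mu j b', v k (σ.s j b'))) b :=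
        AnalyticAt.comp (g := q) (f := fun b' => (b', mu j b', v k (σ.s j b'))) hq
          (analyticAt_id.prod ((hmu j hj b hb).1.prod
            ((σ.sec j b hb).2.2 (v k) ((Q.model k).hol_v h1))))
      refine h7.congr ?_
      filter_upwards [hcY.eventually hq', σ.F.openB.mem_nhds hb] with b' h8 h9
      rw [h8, Function.comp_apply, hE b' h9]
  -- the new positions
  set s' : L → (Fin m → ℂ) → M.T.X := fun j b =>
    if j ∈ at' k then M.ιN (Y j b) else hF.lift (σ.s j b) with hs'd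
  have s'_in : ∀ j ∈ at' k, ∀ b, s' j b = M.ιN (Y j b) := fun j hj b => if_pos hj
  have s'_out : ∀ j ∉ at' k, ∀ b, s' j b = hF.lift (σ.s j b) := fun j hj b => if_neg hj
  have hsec : ∀ j, IsSec M.T σ.F.B (s' j) := by
    intro j
    by_cases hj : j ∈ at' k
    · have h1 : s' j = M.ιN ∘ Y j := funext (s'_in j hj)
      rw [h1]
      exact M.secN (hYsec j hj)
    · have h1 : s' j = hF.lift ∘ σ.s j := funext (s'_out j hj)
      rw [h1]
      exact hF.sec (σ.sec j) (hoffZ j hj)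
  have hrs : ∀ j, ∀ b ∈ σ.F.B, M.r (s' j b) = σ.s j b := by
    intro j b hb
    by_cases hj : j ∈ at' k
    · rw [s'_in j hj, M.rN]; exact (hY j hj b hb).1
    · rw [s'_out j hj, hF.r_lift]
  have hZ' : ∀ x ∈ M.Z, (∀ j, X₀.SmoothAt (P j (σ.F.S.π x))) →
      ¬ ∀ i j, P i (σ.F.S.π x) = P j (σ.F.S.π x) → i = j := by
    intro x hx
    rw [H.Z_eq] at hx
    exact hZ _ (σ.F.mem x) hx.2.2.2.1 hx.2.2.2.2
  -- the normalization
  obtain ⟨g', hN', gnone, gsome, nearT, nearF⟩ :=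
    NormS.insert H (Q.model k) Q.norm hU hne hφ (eK k) (Q.node k) hτ (Q.br k)
  -- the graph
  have hI3 : ∀ e s, e ≠ eK k → hI h (eK k) (some e, s) = some (h (e, s)) :=
    fun e s he => if_neg fun h => he h.1
  have zI3 : ∀ e s, e ≠ eK k → zI z (eK k) (some e, s) = z (e, s) :=
    fun e s he => if_neg fun h => he h.1
  have hUev : ∀ (w : OnePoint ℂ) (b : Fin m' → ℂ), b ∈ U →
      ∀ᶠ p : OnePoint ℂ × (Fin m' → ℂ) in 𝓝 (w, b), p.2 ∈ U :=
    fun w b hb => continuousAt_snd.eventually (hU.mem_nhds hb)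
  -- the new models
  have ιNinj : Function.Injective M.ιN := M.embN.injective
  have hπN : ∀ y, M.T.π (M.ιN y) = N'.π y := fun y => by rw [← M.πr, M.rN, M.hπ]
  set O : Set N'.X := {y | a y ≠ OnePoint.infty ∧ ‖af y‖ < ε} with hO
  have hOo : IsOpen O := by
    rw [isOpen_iff_mem_nhds]
    rintro y ⟨hy1, hy2⟩
    have h1 : {y | a y ≠ OnePoint.infty} ∈ 𝓝 y := H.m0.isOpen.mem_nhds hy1
    have h2 : ContinuousAt (fun y => ‖af y‖) y := (H.m0.cont_u hy1).norm
    filter_upwards [h1, h2.eventually_lt_const hy2] with y' h3 h4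
    exact ⟨h3, h4⟩
  have mO : IsModel N'.π N'.hol O af (fun y => v k (M.ρ y)) τ₁ := H.m0.mono hOo fun y hy => hy.1
  have mN : IsModel M.T.π M.T.hol (M.ιN '' O) (Function.extend M.ιN af 0)
      (Function.extend M.ιN (fun y => v k (M.ρ y)) 0) τ₁ :=
    mO.image M.embN hπN (fun y f => M.holN y f)
  have eu : ∀ y, Function.extend M.ιN af 0 (M.ιN y) = af y := fun y => ιNinj.extend_apply _ _ _
  have ev : ∀ y, Function.extend M.ιN (fun y => v k (M.ρ y)) 0 (M.ιN y) = v k (M.ρ y) :=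
    fun y => ιNinj.extend_apply _ _ _
  have hdZ : ∀ k', k' ≠ k → Disjoint (Uc k') M.Z := by
    intro k' hk
    exact (Q.disj k' k hk).mono_right hZU
  have hON : ∀ x ∈ M.ιN '' O, M.r x ∈ Uc k := by
    rintro _ ⟨y, -, rfl⟩
    rw [M.rN]
    have := M.maps y
    rwa [H.N_eq] at this
  -- the lift of an old point
  have lift_g : ∀ v' w b, b ∈ U → g v' w b ∉ M.Z → hF.lift (g v' w b) = g' (some v') w b := by
    intro v' w b hb hz
    have h1 := gsome b hb v' w
    have h2 := hF.lift_eq (z := g' (some v') w b) (by rw [h1]; exact hz)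
    rwa [h1] at h2
  refine ⟨σ.mod M hF s' hsec hrs ∅ (fun j hj => hj.elim) (fun j hj => hj.elim) hZ', rfl, g',
    fun k' => if k' = k then M.ιN '' O else M.r ⁻¹' Uc k',
    fun k' => if k' = k then Function.extend M.ιN af 0 else fun x => u k' (M.r x),
    fun k' => if k' = k then Function.extend M.ιN (fun y => v k (M.ρ y)) 0 else
      fun x => v k' (M.r x),
    fun k' => if k' = k then τ₁ else t k', ?_,
    hPr s' hrs fun j hj b hb => ⟨Y j b, s'_in j hj b, hY j hj b hb⟩⟩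
  constructor
  case norm => exact hN'
  case mem => exact Q.mem
  case inj =>
    intro k₁ k₂ e
    by_cases h1 : k₁ = k <;> by_cases h2 : k₂ = k
    · rw [h1, h2]
    · simp [h1, h2] at e
    · simp [h1, h2] at e
    · simp only [h1, h2, if_false, Option.some.injEq] at e
      exact Q.inj e
  case lab =>
    intro j hj b hb
    have hb' := Q.mem b hb
    change s' j (φ b) = _
    by_cases hjk : j ∈ at' k
    · simp only [if_pos hjk]
      rw [s'_in j hjk]
      obtain ⟨y, hy1, hy2, hy3⟩ := gnone b hb (mu j (φ b) : OnePoint ℂ)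
      rw [hy1]
      obtain ⟨h3, h4⟩ := hY j hjk _ hb'
      refine congrArg M.ιN (H.ext ?_ ?_)
      · rw [h3, hy2]; exact Q.labn k j hjk b hb
      · rw [h4, hy3]
    · simp only [if_neg hjk]
      have h1 : ∀ k', j ∉ at' k' := by
        intro k' h2
        by_cases hk : k' = k
        · exact hjk (hk ▸ h2)
        · have := hj k'
          rw [if_neg hk] at this
          exact this h2
      rw [s'_out j hjk, Q.lab j h1 b hb]
      exact lift_g _ _ _ hb (by rw [← Q.lab j h1 b hb]; exact hoffZ j hjk _ hb')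
  case labn =>
    intro k' j hj b hb
    have hb' := Q.mem b hb
    change s' j (φ b) = _
    by_cases hk : k' = k
    · subst hk
      simp only [if_true] at hj ⊢
      obtain ⟨hjk, -, h0⟩ := hsm j hj
      rw [s'_in j hjk]
      obtain ⟨y, hy1, hy2, hy3⟩ := gnone b hb ((0 : ℂ) : OnePoint ℂ)
      change _ = g' none ((0 : ℂ) : OnePoint ℂ) b
      rw [hy1]
      obtain ⟨h3, h4⟩ := hY j hjk _ hb'
      refine congrArg M.ιN (H.ext ?_ ?_)
      · rw [h3, hy2]; exact Q.labn k' j hjk b hb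
      · rw [h4, hy3, h0 b hb]
    · simp only [if_neg hk] at hj ⊢
      have he : eK k' ≠ eK k := fun e => hk (Q.inj e)
      rw [hI3 _ _ he, zI3 _ _ he, s'_out j (hdisjL k' j hk hj), Q.labn k' j hj b hb]
      refine lift_g _ _ _ hb ?_
      exact fun hz => disjoint_left.1 (Q.disj k' k hk) (Q.node k' b hb).1 (hZU _ hz)
  case model =>
    intro k'
    by_cases hk : k' = k
    · subst hk
      simp only [if_true]
      exact mN
    · simp only [if_neg hk]
      exact model_off M (Q.model k') (hdZ k' hk)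
  case disj =>
    intro k₁ k₂ hne'
    rw [disjoint_left]
    intro x hx1 hx2
    by_cases h1 : k₁ = k <;> by_cases h2 : k₂ = k
    · exact hne' (h1.trans h2.symm)
    · simp only [if_pos h1] at hx1
      simp only [if_neg h2] at hx2
      exact disjoint_left.1 (Q.disj k₂ k h2) hx2 (hON x hx1)
    · simp only [if_neg h1] at hx1
      simp only [if_pos h2] at hx2
      exact disjoint_left.1 (Q.disj k₁ k h1) hx1 (hON x hx2)
    · simp only [if_neg h1] at hx1
      simp only [if_neg h2] at hx2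
      exact disjoint_left.1 (Q.disj k₁ k₂ hne') hx1 hx2
  case node =>
    intro k' b hb
    by_cases hk : k' = k
    · subst hk
      simp only [if_true]
      obtain ⟨y, hy1, hy2, hy3⟩ := gnone b hb ((0 : ℂ) : OnePoint ℂ)
      have e0 : g' (hI h (eK k') (none, true)) (zI z (eK k') (none, true) b) b = M.ιN y := hy1
      have ha : af y = 0 := H.af_eq _ _ hy3
      have hyO : y ∈ O := by
        refine ⟨?_, ?_⟩
        · rw [hy3]; exact OnePoint.coe_ne_infty _
        · rw [ha, norm_zero]; exact hε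
      have hv0 : v k' (M.ρ y) = 0 := by rw [hy2]; exact (Q.node k' b hb).2.2
      rw [e0]
      exact ⟨mem_image_of_mem _ hyO, (eu y).trans ha, (ev y).trans hv0⟩
    · simp only [if_neg hk]
      have he : eK k' ≠ eK k := fun e => hk (Q.inj e)
      rw [hI3 _ _ he, zI3 _ _ he]
      have e2 := Q.node k' b hb
      rw [← gsome b hb] at e2
      exact e2
  case br =>
    intro k' b₀ hb₀
    by_cases hk : k' = k
    · subst hk
      simp only [if_true]
      constructor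
      · filter_upwards [hUev _ b₀ hb₀] with p hp
        obtain ⟨y, hy1, hy2, hy3⟩ := gnone p.2 hp p.1
        have e0 : g' (hI h (eK k') (none, true)) p.1 p.2 = M.ιN y := hy1
        have hv0 : v k' (M.ρ y) = 0 := by rw [hy2]; exact (Q.node k' p.2 hp).2.2
        rw [e0]
        exact (ev y).trans hv0
      · have h1 := nearF b₀ hb₀
        filter_upwards [h1] with p hp
        obtain ⟨y, hy1, hy2⟩ := hp
        have e0 : g' (hI h (eK k') (none, false)) p.1 p.2 = M.ιN y := hy1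
        rw [e0]
        exact (eu y).trans (H.af_eq _ _ hy2)
    · simp only [if_neg hk]
      have he : eK k' ≠ eK k := fun e => hk (Q.inj e)
      rw [hI3 _ _ he, zI3 _ _ he, hI3 _ _ he, zI3 _ _ he]
      obtain ⟨h1, h2⟩ := Q.br k' b₀ hb₀
      constructor
      · filter_upwards [h1, hUev _ b₀ hb₀] with p hp hp2
        rw [gsome p.2 hp2]; exact hp
      · filter_upwards [h2, hUev _ b₀ hb₀] with p hp hp2
        rw [gsome p.2 hp2]; exact hp
  case inU =>
    intro k' j hj b hb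
    change s' j b ∈ _ ∧ _
    have hb : b ∈ σ.F.B := hb
    by_cases hk : k' = k
    · subst hk
      simp only [if_true] at hj ⊢
      obtain ⟨hjk, h1, -⟩ := hsm j hj
      obtain ⟨h3, h4⟩ := hY j hjk b hb
      change s' j b ∈ _ ∧ Function.extend M.ιN af 0 (s' j b) = _ ∧
        Function.extend M.ιN (fun y => v k' (M.ρ y)) 0 (s' j b) = _
      have ha : af (Y j b) = mu j b := H.af_eq _ _ h4
      have hyO : Y j b ∈ O := by
        refine ⟨?_, ?_⟩
        · rw [h4]; exact OnePoint.coe_ne_infty _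
        · rw [ha]; exact h1 b hb
      have hv0 : v k' (M.ρ (Y j b)) = vf k' j b := by rw [h3]; exact (Q.inU k' j hjk b hb).2.2
      rw [s'_in j hjk]
      exact ⟨mem_image_of_mem _ hyO, (eu _).trans ha, (ev _).trans hv0⟩
    · simp only [if_neg hk] at hj ⊢
      have e2 := Q.inU k' j hj b hb
      rw [← hrs j b hb] at e2
      exact e2
  case off =>
    intro k' j hj b hb
    change s' j b ∉ _
    have hb : b ∈ σ.F.B := hb
    by_cases hk : k' = k
    · subst hk
      simp only [if_true] at hj ⊢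
      intro hx
      by_cases hjk : j ∈ at' k'
      · rw [s'_in j hjk] at hx
        obtain ⟨y, ⟨-, hy⟩, e⟩ := hx
        rw [ιNinj e, H.af_eq _ _ (hY j hjk b hb).2] at hy
        exact absurd hy (not_lt.2 (hlg j hjk hj b hb).le)
      · have h1 := hON _ hx
        rw [hrs j b hb] at h1
        exact Q.off k' j hjk b hb h1
    · simp only [if_neg hk] at hj ⊢
      have e2 := Q.off k' j hj b hb
      rw [← hrs j b hb] at e2
      exact e2


/-- The data of the insertion of a line at the node of the neck `k`, with the label `j₀` at `1`. -/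
def nodeData (Q : QS σ U φ h z g eK at' vL zL Uc u v t uf vf) {k : K} {j₀ : L}
    (hj₀ : j₀ ∈ at' k) : H469.NodeData σ.F.S where
  U := Uc k
  u := u k
  v := v k
  t := t k
  τ₀ := uf k j₀
  τ₁ := vf k j₀
  mod := Q.model k
  an₀ x _ := H591.QS.an_uf Q hj₀ (σ.F.mem x)
  an₁ x _ := H591.QS.an_vf Q hj₀ (σ.F.mem x)
  fac x _ := by
    filter_upwards [σ.F.openB.mem_nhds (σ.F.mem x)] with b hb
    exact H591.QS.t_eq Q hj₀ hb
  cl := H591.QS.centre_closed Q hj₀

open Classical in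
/-- **One step.** A projective line is inserted at the last node of the neck `k`, with the label `j₀`
at `1`; the label `j` of this node gets the coordinate `mu j` on the new line. -/
theorem step_node (hU : IsOpen U) (hne : U.Nonempty) (hφ : ∀ b ∈ U, AnalyticAt ℂ φ b)
    (Q : QS σ U φ h z g eK at' vL zL Uc u v t uf vf)
    (hst : ∀ b ∈ σ.F.B, H949.NoFld σ.F.S b {p | ∃ j, σ.s j b = p}) (k : K) {j₀ : L}
    (hj₀ : j₀ ∈ at' k) (hτ : ∀ b ∈ U, uf k j₀ (φ b) = 0 ∧ vf k j₀ (φ b) = 0)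
    (hZ : ∀ b ∈ σ.F.B, uf k j₀ b = 0 → vf k j₀ b = 0 → (∀ j, X₀.SmoothAt (P j b)) →
      ¬ ∀ i j, P i b = P j b → i = j)
    (mu : L → (Fin m → ℂ) → ℂ) (hmu1 : ∀ b ∈ σ.F.B, mu j₀ b = 1)
    (hmu : ∀ j ∈ at' k, ∀ b ∈ σ.F.B, AnalyticAt ℂ (mu j) b ∧
      uf k j b = uf k j₀ b * mu j b ∧ mu j b * vf k j b = vf k j₀ b)
    {ε : ℝ} (hε : 0 < ε) (sm : Set L) (hsm : ∀ j ∈ sm, j ∈ at' k ∧ (∀ b ∈ σ.F.B, ‖mu j b‖ < ε) ∧
      ∀ b ∈ U, mu j (φ b) = 0)
    (hlg : ∀ j ∈ at' k, j ∉ sm → ∀ b ∈ σ.F.B, ε < ‖mu j b‖) :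
    ∃ (σ' : State X₀ P ∅) (_ : σ'.F.B = σ.F.B)
      (g' : Option V → OnePoint ℂ → (Fin m' → ℂ) → σ'.F.S.X) (Uc' : K → Set σ'.F.S.X)
      (u' v' : K → σ'.F.S.X → ℂ) (t' : K → (Fin m → ℂ) → ℂ),
      QS σ' U φ (hI h (eK k)) (zI z (eK k)) g'
        (fun k' => if k' = k then none else some (eK k'))
        (fun k' => if k' = k then sm else at' k')
        (fun j => if j ∈ at' k then none else some (vL j))
        (fun j => if j ∈ at' k then fun b => ((mu j (φ b) : ℂ) : OnePoint ℂ) else zL j)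
        Uc' u' v' t' (fun k' => if k' = k then mu else uf k') vf ∧
      ∀ b ∈ σ'.F.B, H949.NoFld σ'.F.S b {p | ∃ j, σ'.s j b = p} := by
  have hPr : ∀ s' : L → (Fin m → ℂ) → (nodeData Q hj₀).modif.T.X,
      (∀ j, ∀ b ∈ σ.F.B, (nodeData Q hj₀).modif.r (s' j b) = σ.s j b) →
      (∀ j ∈ at' k, ∀ b ∈ σ.F.B, ∃ y, s' j b = (nodeData Q hj₀).modif.ιN y ∧
        (nodeData Q hj₀).modif.ρ y = σ.s j b ∧ (nodeData Q hj₀).a y = (mu j b : OnePoint ℂ)) →
      ∀ b ∈ σ.F.B, H949.NoFld (nodeData Q hj₀).modif.T b {p | ∃ j, s' j b = p} := by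
    intro s' hr hN b hb
    refine H949.node_inh (D := nodeData Q hj₀) ?_ ?_ (hst b hb)
    · rintro _ ⟨j, rfl⟩
      exact ⟨s' j b, ⟨j, rfl⟩, hr j b hb⟩
    · rintro x hx rfl
      obtain ⟨y, hy1, hy2, hy3⟩ := hN j₀ hj₀ _ hb
      have hx' := hx
      obtain ⟨g1, g2, g3, g4, g5⟩ := hx'
      obtain ⟨f1, f2, f3⟩ := Q.inU k j₀ hj₀ _ hb
      have hxs : x = σ.s j₀ (σ.F.S.π x) := by
        refine (Q.model k).inj g1 f1 ?_
        have e1 : u k x = 0 := g2
        have e2 : v k x = 0 := g3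
        have e3 : uf k j₀ (σ.F.S.π x) = 0 := g4
        have e4 : vf k j₀ (σ.F.S.π x) = 0 := g5
        simp only [Emap]
        rw [(σ.sec j₀ _ hb).1, f2, f3, e1, e2, e3, e4]
      refine ⟨j₀, ?_⟩
      rw [hy1]
      congr 1
      refine Subtype.ext (Prod.ext ?_ ?_)
      · exact hy2.trans hxs.symm
      · rw [hmu1 _ hb] at hy3
        exact hy3
  obtain ⟨σ', hB, g', Uc', u', v', t', h1, h2⟩ := step_pr hU hne hφ Q k
    (H469.NodeData.nodeMod (nodeData Q hj₀)) (H469.NodeData.fib (D := nodeData Q hj₀)) hτ hZ mu hmu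
    hε sm hsm hlg
    (fun T s' => ∀ b ∈ σ.F.B, H949.NoFld T b {p | ∃ j, s' j b = p}) hPr
  exact ⟨σ', hB, g', Uc', u', v', t', h1, fun b hb => h2 b (hB ▸ hb)⟩

end QS

end Vale.Agent.P273.H951

end
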